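import Vale.Agent.P239B48.Defs
import Vale.Agent.P300.H903.UC

/-!
# P239: universal covers and the deck action of the fundamental group
-/

namespace Vale.Agent.P239B

open Topology

noncomputable section

variable {M X Y : Type*} [TopologicalSpace M] [TopologicalSpace X] [TopologicalSpace Y]
  {p : X → M}

theorem lpc [LocallyPathConnectedSpace M] (hp : IsLocalHomeomorph p) :
    LocallyPathConnectedSpace X := by
  refine ⟨fun x => ⟨fun s => ⟨fun hs => ?_, fun ⟨u, hu⟩ => Filter.mem_of_superset hu.1.1 hu.2⟩⟩⟩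
  obtain ⟨e, hx, -⟩ := hp x
  let t := s ∩ e.source
  have ht : t ∈ 𝓝 x := Filter.inter_mem hs (e.open_source.mem_nhds hx)
  refine ⟨e.symm '' pathComponentIn (e '' t) (e x), ⟨?_, ?_⟩,
    (?_ : _ ⊆ t).trans Set.inter_subset_left⟩
  · nth_rewrite 1 [← e.left_inv hx]
    exact e.symm.image_mem_nhds (e.map_source hx)
      (pathComponentIn_mem_nhds <| e.image_mem_nhds hx ht)
  · refine (isPathConnected_pathComponentIn <|
      Set.mem_image_of_mem e (mem_of_mem_nhds ht)).image' (e.continuousOn_symm.mono ?_)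
    refine pathComponentIn_subset.trans ?_
    rintro _ ⟨y, hy, rfl⟩
    exact e.map_source hy.2
  · exact (Set.image_mono pathComponentIn_subset).trans
      (PartialEquiv.symm_image_image_of_subset_source _ Set.inter_subset_right).subset

theorem surj [PathConnectedSpace M] [Nonempty X] (hp : IsCoveringMap p) :
    Function.Surjective p := fun m => by
  obtain ⟨x⟩ := ‹Nonempty X›
  exact ⟨_, (hp.monodromy (.mk (PathConnectedSpace.somePath (p x) m)) ⟨x, rfl⟩).2⟩

/-- Two universal covers are isomorphic over the base. -/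
theorem exists_homeo [LocallyPathConnectedSpace M] {q : Y → M} (hp : IsUniversalCover p)
    (hq : IsUniversalCover q) {x : X} {y : Y} (h : p x = q y) :
    ∃ φ : X ≃ₜ Y, φ x = y ∧ ∀ z, q (φ z) = p z := by
  have := hp.sc
  have := hq.sc
  have := lpc hp.cov.isLocalHomeomorph
  have := lpc hq.cov.isLocalHomeomorph
  obtain ⟨f, ⟨f1, f2⟩, -⟩ :=
    hq.cov.existsUnique_continuousMap_lifts ⟨p, hp.cov.continuous⟩ x y h.symm
  obtain ⟨g, ⟨g1, g2⟩, -⟩ :=
    hp.cov.existsUnique_continuousMap_lifts ⟨q, hq.cov.continuous⟩ y x h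
  have f3 : ∀ z, q (f z) = p z := congrFun f2
  have g3 : ∀ z, p (g z) = q z := congrFun g2
  have e1 : g ∘ f = id := hp.cov.eq_of_comp_eq (g.continuous.comp f.continuous) continuous_id
    (funext fun z => (g3 _).trans (f3 z)) x (by simp [f1, g1])
  have e2 : f ∘ g = id := hq.cov.eq_of_comp_eq (f.continuous.comp g.continuous) continuous_id
    (funext fun z => (f3 _).trans (g3 z)) y (by simp [f1, g1])
  exact ⟨⟨⟨f, g, congrFun e1, congrFun e2⟩, f.continuous, g.continuous⟩, f1, f3⟩

/-- The group of deck transformations. -/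
def deck (p : X → M) : Subgroup (Equiv.Perm X) where
  carrier := {φ | Continuous φ ∧ Continuous φ.symm ∧ ∀ x, p (φ x) = p x}
  one_mem' := ⟨continuous_id, continuous_id, fun _ => rfl⟩
  mul_mem' a b := ⟨a.1.comp b.1, b.2.1.comp a.2.1, fun x => (a.2.2 _).trans (b.2.2 x)⟩
  inv_mem' {φ} a := ⟨a.2.1, a.1, fun x => by
    rw [← a.2.2]; exact congrArg p (φ.apply_symm_apply x)⟩

variable [PathConnectedSpace M] [LocallyPathConnectedSpace M]

theorem deck_quot (hp : IsUniversalCover p) : IsQuotientCoveringMap p (deck p) := by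
  have := hp.sc
  refine (isQuotientCoveringMap_iff_isCoveringMap_and _ _).2
    ⟨hp.cov, surj hp.cov, ⟨fun g => g.2.1⟩, ⟨fun a b c h => ?_⟩, fun {x y} => ⟨fun h => ?_, ?_⟩⟩
  · exact Subtype.ext (Equiv.ext (congrFun (hp.cov.eq_of_comp_eq a.2.1 b.2.1
      (funext fun z => (a.2.2.2 z).trans (b.2.2.2 z).symm) c h)))
  · obtain ⟨φ, h1, h2⟩ := exists_homeo hp hp h.symm
    exact ⟨⟨φ.toEquiv, φ.continuous, φ.symm.continuous, h2⟩, h1⟩
  · rintro ⟨g, rfl⟩
    exact g.2.2.2 y

omit [PathConnectedSpace M] [LocallyPathConnectedSpace M] in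
theorem deck_unique (hp : IsUniversalCover p) {x₀ : X}
    {a b : MulAction (FundamentalGroup M (p x₀)) X} (ha : IsDeckAction hp.cov x₀ a)
    (hb : IsDeckAction hp.cov x₀ b) : a = b := by
  have := hp.sc
  refine MulAction.ext (funext fun γ => ?_)
  exact hp.cov.eq_of_comp_eq (ha.cont.1 γ) (hb.cont.1 γ)
    (funext fun z => (ha.proj γ z).trans (hb.proj γ z).symm) _ ((ha.lift γ).trans (hb.lift γ).symm)

theorem deck_exists (hp : IsUniversalCover p) (x₀ : X) :
    ∃ a : MulAction (FundamentalGroup M (p x₀)) X, IsDeckAction hp.cov x₀ a ∧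
      IsQuotientCoveringMap p (FundamentalGroup M (p x₀)) ∧
      ∀ φ : X ≃ₜ X, (∀ x, p (φ x) = p x) →
        ∃! γ : FundamentalGroup M (p x₀), ∀ x, a.smul γ x = φ x := by
  have := hp.sc
  have hq := deck_quot hp
  let ψ : FundamentalGroup M (p x₀) ≃* deck p :=
    (hq.fundamentalGroupEquiv ⟨x₀, rfl⟩).trans (MulEquiv.inv' (deck p)).symm
  let a : MulAction (FundamentalGroup M (p x₀)) X := MulAction.compHom X ψ.toMonoidHom
  have e : ∀ (γ : FundamentalGroup M (p x₀)) (x : X), γ • x = ψ γ • x := fun _ _ => rfl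
  have c : ContinuousConstSMul (FundamentalGroup M (p x₀)) X := ⟨fun γ => (ψ γ).2.1⟩
  refine ⟨a, ⟨c, fun γ => (ψ γ).2.2.2, fun γ => ?_⟩, ?_, fun φ hφ => ?_⟩
  · have h := hq.unop_fundamentalGroupToMulOpposite_smul (e := ⟨x₀, rfl⟩) (γ := γ)
    rw [e, ← h]
    exact inv_smul_smul _ x₀
  · refine (isQuotientCoveringMap_iff_isCoveringMap_and _ _).2
      ⟨hp.cov, hq.surjective, c, ⟨fun γ γ' x h => ψ.injective
        (hq.isCancelSMul.right_cancel _ _ x h)⟩, fun {x y} => hq.apply_eq_iff_mem_orbit.trans ?_⟩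
    refine ⟨fun ⟨g, hg⟩ => ⟨ψ.symm g, ?_⟩, fun ⟨γ, h⟩ => ⟨ψ γ, h⟩⟩
    change ψ (ψ.symm g) • y = x
    rw [ψ.apply_symm_apply]
    exact hg
  · let g : deck p := ⟨φ.toEquiv, φ.continuous, φ.symm.continuous, hφ⟩
    refine ⟨ψ.symm g, fun x => ?_, fun γ h => ?_⟩
    · change ψ (ψ.symm g) • x = _
      rw [ψ.apply_symm_apply]
      rfl
    · rw [ψ.eq_symm_apply]
      exact Subtype.ext (Equiv.ext h)

end

/-- Closed connected manifolds have universal covers. -/
theorem exists_cover {n : ℕ} (M : Type*) [TopologicalSpace M] [T2Space M] [CompactSpace M]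
    [ConnectedSpace M] [ChartedSpace (EuclideanSpace ℝ (Fin n)) M] :
    ∃ (X : Type) (_ : TopologicalSpace X) (p : X → M), IsUniversalCover p := by
  have := ChartedSpace.secondCountable_of_sigmaCompact (EuclideanSpace ℝ (Fin n)) M
  have : Countable (TopologicalSpace.countableBasis M) :=
    (TopologicalSpace.countable_countableBasis M).to_subtype
  have : Small.{0} M := small_of_injective
    (f := fun x : M => {U : TopologicalSpace.countableBasis M | x ∈ U.1}) fun x y h =>
      (TopologicalSpace.isBasis_countableBasis M).eq_iff.2 fun s hs => Set.ext_iff.1 h ⟨s, hs⟩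
  let e := Shrink.homeomorph.{0} M
  let _ : ChartedSpace (EuclideanSpace ℝ (Fin n)) (Shrink.{0} M) := e.chartedSpace
  have := e.t2Space
  have : ConnectedSpace (Shrink.{0} M) := e.surjective.connectedSpace e.continuous
  obtain ⟨V, _, q, -, h1, h2, -⟩ :=
    P300.H903.exists_topUC (F := EuclideanSpace ℝ (Fin n)) (Shrink.{0} M)
  exact ⟨V, inferInstance, e.symm ∘ q, h2.homeomorph_comp e.symm, h1⟩

end Vale.Agent.P239B
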