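import Vale.Agent.P239B48.Vn

/-!
# P239: the group von Neumann algebra is the weak operator closure of the group algebra

The density theorem is copied from P085Z/Bicomm.
-/

set_option linter.all false

open scoped InnerProductSpace Topology
open Filter

namespace Vale.Agent.P239B

section

variable {H : Type*} [NormedAddCommGroup H] [InnerProductSpace ℂ H] [CompleteSpace H]

theorem exists_proj (S : Set H) : ∃ p : H →L[ℂ] H, star p = p ∧ p * p = p ∧ (∀ v ∈ S, p v = v) ∧
    (∀ x : H →L[ℂ] H, (∀ v ∈ S, x v = 0) → x * p = 0) ∧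
    (∀ y : H →L[ℂ] H, (∀ v ∈ S, p (y v) = y v) → (∀ v ∈ S, p ((star y) v) = (star y) v) →
      y * p = p * y) ∧
    ∀ v : H, p v ∈ closure (Submodule.span ℂ S : Set H) := by
  set K : Submodule ℂ H := (Submodule.span ℂ S).topologicalClosure with hK
  have : CompleteSpace K := (Submodule.isClosed_topologicalClosure _).completeSpace_coe
  have hproj : IsStarProjection K.starProjection := isStarProjection_starProjection
  have hs : star K.starProjection = K.starProjection := hproj.isSelfAdjoint
  have h4 : ∀ x : H →L[ℂ] H, (∀ v ∈ S, x v = 0) → x * K.starProjection = 0 := by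
    intro x hx
    ext v
    change x (K.starProjection v) = 0
    have hmem : K.starProjection v ∈ K := Submodule.starProjection_apply_mem _ _
    have hclosed : IsClosed {ζ | x ζ = 0} := isClosed_eq x.continuous continuous_const
    have hsub : (Submodule.span ℂ S : Set H) ⊆ {ζ | x ζ = 0} := by
      intro ζ hζ
      have h1 : Submodule.span ℂ S ≤ LinearMap.ker (x : H →ₗ[ℂ] H) :=
        Submodule.span_le.2 fun v hv => hx v hv
      exact h1 hζ
    exact hclosed.closure_subset_iff.2 hsub hmem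
  refine ⟨K.starProjection, hs, hproj.isIdempotentElem, ?_, h4, ?_, ?_⟩
  · intro v hv
    rw [Submodule.starProjection_eq_self_iff]
    exact Submodule.le_topologicalClosure _ (Submodule.subset_span hv)
  · intro y h1 h2
    have k1 := h4 (y - K.starProjection * y) fun v hv => by
      change y v - K.starProjection (y v) = 0
      rw [h1 v hv, sub_self]
    have k2 := h4 (star y - K.starProjection * star y) fun v hv => by
      change (star y) v - K.starProjection ((star y) v) = 0
      rw [h2 v hv, sub_self]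
    have k3 := congrArg star k2
    rw [star_mul, hs, star_sub, star_mul, star_star, hs, star_zero, mul_sub, sub_eq_zero] at k3
    rw [sub_mul, sub_eq_zero] at k1
    rw [k1, mul_assoc, ← k3]
  · intro v
    exact Submodule.starProjection_apply_mem K v

/-- the diagonal amplification -/
noncomputable def diag (ι : Type*) [Fintype ι] (a : H →L[ℂ] H) :
    PiLp 2 (fun _ : ι => H) →L[ℂ] PiLp 2 (fun _ : ι => H) :=
  (PiLp.continuousLinearEquiv 2 ℂ (fun _ : ι => H)).symm.toContinuousLinearMap ∘L
    ContinuousLinearMap.pi fun i => a ∘L PiLp.proj 2 (fun _ : ι => H) i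

omit [CompleteSpace H] in
theorem diag_apply {ι : Type*} [Fintype ι] (a : H →L[ℂ] H) (x : PiLp 2 (fun _ : ι => H))
    (i : ι) : diag ι a x i = a (x i) := rfl

theorem star_diag {ι : Type*} [Fintype ι] (a : H →L[ℂ] H) : star (diag ι a) = diag ι (star a) := by
  rw [ContinuousLinearMap.star_eq_adjoint]
  symm
  rw [ContinuousLinearMap.eq_adjoint_iff]
  intro x y
  rw [PiLp.inner_apply, PiLp.inner_apply]
  exact Finset.sum_congr rfl fun i _ => ContinuousLinearMap.adjoint_inner_left a (y i) (x i)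

/-- the coordinate embeddings -/
noncomputable def emb {ι : Type*} [Fintype ι] [DecidableEq ι] (j : ι) :
    H →L[ℂ] PiLp 2 (fun _ : ι => H) :=
  (PiLp.continuousLinearEquiv 2 ℂ (fun _ : ι => H)).symm.toContinuousLinearMap ∘L
    ContinuousLinearMap.single ℂ (fun _ : ι => H) j

omit [CompleteSpace H] in
theorem emb_apply {ι : Type*} [Fintype ι] [DecidableEq ι] (j : ι) (v : H) (i : ι) :
    (emb j v : PiLp 2 (fun _ : ι => H)) i = (Pi.single j v : ι → H) i := rfl

omit [CompleteSpace H] in
theorem diag_emb {ι : Type*} [Fintype ι] [DecidableEq ι] (a : H →L[ℂ] H) (j : ι) (v : H) :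
    diag ι a (emb j v) = emb j (a v) := by
  ext i
  rw [diag_apply, emb_apply, emb_apply]
  by_cases h : i = j
  · subst h; simp
  · simp [h]

omit [CompleteSpace H] in
theorem sum_emb {ι : Type*} [Fintype ι] [DecidableEq ι] (x : PiLp 2 (fun _ : ι => H)) :
    ∑ j, emb j (x j) = x := by
  ext i
  rw [WithLp.ofLp_sum, Finset.sum_apply]
  simp only [emb_apply]
  rw [Finset.sum_eq_single i (fun j _ hj => Pi.single_eq_of_ne hj.symm _) (by simp)]
  simp

/-- the density theorem of von Neumann -/
theorem exists_approx_of_bicomm (A : StarSubalgebra ℂ (H →L[ℂ] H)) {y : H →L[ℂ] H}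
    (hy : ∀ c : H →L[ℂ] H, (∀ a ∈ A, a * c = c * a) → y * c = c * y) (F : Finset H) {ε : ℝ}
    (hε : 0 < ε) : ∃ a ∈ A, ∀ v ∈ F, ‖y v - a v‖ ≤ ε := by
  classical
  obtain ⟨v, hv⟩ : ∃ v : PiLp 2 (fun _ : F => H), ∀ i, v i = i.1 :=
    ⟨WithLp.toLp 2 fun i => i.1, fun _ => rfl⟩
  obtain ⟨P, -, -, h1, -, h3, h4⟩ := exists_proj {w | ∃ a ∈ A, w = diag F a v}
  have hmul : ∀ a b : H →L[ℂ] H, diag F a (diag F b v) = diag F (a * b) v := fun a b => by
    ext i; rfl
  have hPa : ∀ a ∈ A, diag F a * P = P * diag F a := by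
    intro a ha
    refine h3 _ ?_ ?_
    · rintro w ⟨b, hb, rfl⟩
      exact h1 _ ⟨a * b, mul_mem ha hb, hmul a b⟩
    · rintro w ⟨b, hb, rfl⟩
      rw [star_diag]
      exact h1 _ ⟨star a * b, mul_mem (star_mem ha) hb, hmul _ b⟩
  have hent : ∀ (i j : F) (u : H), y (P (emb j u) i) = P (emb j (y u)) i := by
    intro i j u
    have k1 := hy (PiLp.proj 2 (fun _ : F => H) i ∘L P ∘L emb j) fun a ha => by
      ext u
      have k2 : diag F a (P (emb j u)) = P (diag F a (emb j u)) :=
        congrArg (fun T : PiLp 2 (fun _ : F => H) →L[ℂ] PiLp 2 (fun _ : F => H) => T (emb j u))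
          (hPa a ha)
      rw [diag_emb] at k2
      exact congrArg (fun w : PiLp 2 (fun _ : F => H) => w i) k2
    exact congrArg (fun T : H →L[ℂ] H => T u) k1
  have hPv : P v = v := h1 _ ⟨1, one_mem A, by ext i; rfl⟩
  have hPy : P (diag F y v) = diag F y v := by
    ext i
    rw [diag_apply]
    conv_rhs => rw [← hPv, ← sum_emb v]
    conv_lhs => rw [← sum_emb (diag F y v)]
    rw [map_sum, map_sum, WithLp.ofLp_sum, WithLp.ofLp_sum, Finset.sum_apply, Finset.sum_apply,
      map_sum]
    exact Finset.sum_congr rfl fun j _ => (hent i j (v j)).symm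
  have h5 := h4 (diag F y v)
  rw [hPy] at h5
  obtain ⟨w, hw, hd⟩ := Metric.mem_closure_iff.1 h5 ε hε
  have h6 : ∃ a ∈ A, w = diag F a v := by
    clear hd
    induction hw using Submodule.span_induction with
    | mem x hx => exact hx
    | zero => exact ⟨0, zero_mem A, by ext i; rfl⟩
    | add x x' _ _ hx hx' =>
      obtain ⟨a, ha, rfl⟩ := hx
      obtain ⟨b, hb, rfl⟩ := hx'
      exact ⟨a + b, add_mem ha hb, by ext i; rfl⟩
    | smul c x _ hx =>
      obtain ⟨a, ha, rfl⟩ := hx
      exact ⟨c • a, A.smul_mem ha c, by ext i; rfl⟩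
  obtain ⟨a, ha, rfl⟩ := h6
  refine ⟨a, ha, fun u hu => ?_⟩
  have h7 := PiLp.norm_apply_le (diag F y v - diag F a v) ⟨u, hu⟩
  rw [dist_eq_norm] at hd
  have h8 : (diag F y v - diag F a v) ⟨u, hu⟩ = y u - a u := by
    change y (v ⟨u, hu⟩) - a (v ⟨u, hu⟩) = _
    rw [hv]
  rw [h8] at h7
  exact h7.trans hd.le

theorem mem_closure_of_bicomm (A : StarSubalgebra ℂ (H →L[ℂ] H)) {y : H →L[ℂ] H}
    (hy : ∀ c : H →L[ℂ] H, (∀ a ∈ A, a * c = c * a) → y * c = c * y) :
    ContinuousLinearMapWOT.ofCLM y ∈ closure {T : H →WOT[ℂ] H | T.toCLM ∈ A} := by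
  classical
  choose a ha hd using fun p : Finset H × ℕ =>
    exists_approx_of_bicomm A hy p.1 (show 0 < 1 / ((p.2 : ℝ) + 1) by positivity)
  have h1 : Tendsto (fun p => ContinuousLinearMapWOT.ofCLM (a p)) atTop
      (𝓝 (ContinuousLinearMapWOT.ofCLM y)) := by
    rw [ContinuousLinearMapWOT.tendsto_iff_forall_inner_apply_tendsto]
    intro v u
    refine (tendsto_const_nhds (x := u)).inner (𝕜 := ℂ) ?_
    rw [Metric.tendsto_atTop]
    intro ε hε
    obtain ⟨n, hn⟩ := exists_nat_one_div_lt hε
    refine ⟨({v}, n), fun p hp => ?_⟩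
    have k1 := hd p v (hp.1 (Finset.mem_singleton_self v))
    have k2 : 1 / ((p.2 : ℝ) + 1) ≤ 1 / ((n : ℝ) + 1) := Nat.one_div_le_one_div hp.2
    rw [dist_comm, dist_eq_norm]
    exact lt_of_le_of_lt (k1.trans k2) hn
  exact mem_closure_of_tendsto h1 (Eventually.of_forall ha)

open ContinuousLinearMapWOT in
theorem isClosed_comm (c d : H →L[ℂ] H) :
    IsClosed {A : H →WOT[ℂ] H | c * A.toCLM = A.toCLM * d} := by
  have h : {A : H →WOT[ℂ] H | c * A.toCLM = A.toCLM * d} =
      {A : H →WOT[ℂ] H | (ofCLM c).comp A = A.comp (ofCLM d)} := by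
    ext A
    exact ⟨fun h => toCLM_injective h, fun h => congrArg toCLM h⟩
  rw [h]
  exact isClosed_eq (continuous_postcomp (ofCLM c)) (continuous_precomp (ofCLM d))

end

variable {Γ : Type*} [Group Γ]

/-- the group algebra as an algebra of operators -/
noncomputable def gAlg (Γ : Type*) [Group Γ] : StarSubalgebra ℂ (L2 Γ →L[ℂ] L2 Γ) where
  carrier := Submodule.span ℂ (Set.range (lam (Γ := Γ)))
  add_mem' := add_mem
  algebraMap_mem' c := by
    rw [Algebra.algebraMap_eq_smul_one]
    exact Submodule.smul_mem _ _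
      (Submodule.subset_span ⟨1, congrArg Subtype.val (NG.of Γ).map_one⟩)
  mul_mem' {a b} ha hb := by
    have := Submodule.mul_mem_mul ha hb
    rw [Submodule.span_mul_span] at this
    refine Submodule.span_mono ?_ this
    rintro _ ⟨_, ⟨g, rfl⟩, _, ⟨h, rfl⟩, rfl⟩
    exact ⟨g * h, congrArg Subtype.val ((NG.of Γ).map_mul g h)⟩
  star_mem' {a} ha := by
    induction ha using Submodule.span_induction with
    | mem x hx =>
      obtain ⟨g, rfl⟩ := hx
      exact Submodule.subset_span ⟨g⁻¹, (star_lam g).symm⟩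
    | zero => rw [star_zero]; exact zero_mem _
    | add x y _ _ hx hy => rw [star_add]; exact add_mem hx hy
    | smul c x _ hx => rw [star_smul]; exact Submodule.smul_mem _ _ hx

theorem NG_closure : {T : L2 Γ →WOT[ℂ] L2 Γ | T.toCLM ∈ NG Γ} =
    closure {T | T.toCLM ∈ Submodule.span ℂ (Set.range (lam (Γ := Γ)))} := by
  refine Set.Subset.antisymm (fun T hT => ?_) (closure_minimal (fun T hT => ?_) ?_)
  · refine mem_closure_of_bicomm (gAlg Γ) (y := T.toCLM) fun c hc => ?_
    exact (mem_NG.1 hT c fun a ha => hc a (Submodule.subset_span ha)).symm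
  · refine (Submodule.span_le (p := (NG Γ).toStarSubalgebra.toSubalgebra.toSubmodule)).2 ?_ hT
    rintro _ ⟨g, rfl⟩
    exact (NG.of Γ g).2
  · have e : {T : L2 Γ →WOT[ℂ] L2 Γ | T.toCLM ∈ NG Γ} =
        ⋂ c ∈ (Set.range (lam (Γ := Γ))).centralizer, {T | c * T.toCLM = T.toCLM * c} := by
      ext T
      simp only [Set.mem_iInter, Set.mem_setOf_eq, mem_NG]
      rfl
    rw [e]
    exact isClosed_biInter fun c _ => isClosed_comm c c

end Vale.Agent.P239B
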