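import Vale.Agent.P239B48.Tn
import Vale.Agent.P239B48.Cv
import Vale.Agent.P239B48.Wo
import Vale.Agent.P239Z.Main

/-!
# P239: the Singer conjecture in dimension four, for the fundamental group and the universal cover
-/

set_option linter.all false

namespace Vale.Agent.P239B

open Vale.Agent.P239 (bdry bettiTwo)

theorem bdry_bdry {R X : Type*} [Ring R] [TopologicalSpace X] {n : ℕ}
    (z : Sing X (n + 2) →₀ R) : bdry R face (bdry R face z) = 0 := by
  induction z using Finsupp.induction_linear with
  | zero => simp only [map_zero]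
  | add x y hx hy => simp only [map_add, hx, hy, add_zero]
  | single s a =>
    have key : bdry R face (∑ i, Finsupp.single (face i s) ((-1 : R) ^ (i : ℕ))) = 0 := by
      simp only [bdry, map_sum, Finsupp.linearCombination_single, Finset.smul_sum,
        Finsupp.smul_single, smul_eq_mul, ← pow_add]
      rw [← Finset.sum_product']
      refine Finset.sum_involution (fun a _ => (a.1.succAbove a.2, a.2.predAbove a.1))
        (fun a _ => ?_) (fun a _ _ h => Fin.succAbove_ne _ _ (congrArg Prod.fst h))
        (fun _ _ => Finset.mem_univ _) fun a _ => Prod.ext (Fin.succAbove_succAbove_predAbove _ _)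
          (Fin.predAbove_predAbove_succAbove _ _)
      have : face (a.2.predAbove a.1) (face (a.1.succAbove a.2) s) = face a.2 (face a.1 s) :=
        ContinuousMap.ext fun u => congrArg s (by
          change stdSimplex.map _ (stdSimplex.map _ u) = stdSimplex.map _ (stdSimplex.map _ u)
          rw [stdSimplex.map_comp_apply, stdSimplex.map_comp_apply]
          exact congrArg (stdSimplex.map · u)
            (funext (Fin.succAbove_succAbove_succAbove_predAbove _ _)))
      simp only [this, Fin.neg_one_pow_succAbove_add_predAbove, ← Finsupp.single_add,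
        add_neg_cancel, Finsupp.single_zero]
    have e : bdry R face (.single s a) =
        a • ∑ i, Finsupp.single (face i s) ((-1 : R) ^ (i : ℕ)) :=
      Finsupp.linearCombination_single R a s
    rw [e, map_smul, key, smul_zero]

theorem range_le (Γ X : Type*) [Group Γ] [TopologicalSpace X] [MulAction Γ X]
    [ContinuousConstSMul Γ X] (n : ℕ) :
    LinearMap.range (Tens.map (NG.incl Γ) (bd Γ X n)) ≤ cycles Γ X n := by
  cases n with
  | zero => exact le_top
  | succ n =>
    rintro _ ⟨w, rfl⟩
    obtain ⟨w, rfl⟩ := pr_surj Γ X _ w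
    rw [cycles, LinearMap.mem_ker, ← pr_bdry, ← pr_bdry, bdry_bdry, map_zero]

theorem vanish {n : ℕ} (hn : 3 ≤ n) {M X Γ : Type*} [TopologicalSpace M] [T2Space M]
    [CompactSpace M] [ChartedSpace (EuclideanSpace ℝ (Fin n)) M] [TopologicalSpace X]
    [ContractibleSpace X] [Group Γ] [MulAction Γ X] [ContinuousConstSMul Γ X] {p : X → M}
    (hp : IsQuotientCoveringMap p Γ) {q : ℕ} (hq : q ≤ 1 ∨ n ≤ q + 1) : betti Γ X q = 0 := by
  rw [betti_eq]
  rcases hq with hq | hq
  · rcases Nat.le_one_iff_eq_zero_or_eq_one.1 hq with rfl | rfl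
    · exact P239.H269.bettiTwo_zero_of_cover (le_trans (by norm_num) hn) p hp
    · exact P239.H260.singer_n hn p hp
  · exact P239Z.betti_high hn hp hq

universe u v

theorem cover_main (n : ℕ) (M : Type u) [TopologicalSpace M] [T2Space M] [CompactSpace M]
    [ConnectedSpace M] [ChartedSpace (EuclideanSpace ℝ (Fin n)) M] (X : Type v)
    [TopologicalSpace X] (p : X → M) (hp : IsUniversalCover p) (x₀ : X) :
    (Aspherical.{v} M ↔ ContractibleSpace X) ∧ (∃! a, IsDeckAction hp.cov x₀ a) ∧
      ∀ a (h : IsDeckAction hp.cov x₀ a),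
        (∀ φ : X ≃ₜ X, (∀ x, p (φ x) = p x) → ∃! γ, ∀ x, a.smul γ x = φ x) ∧
        (Aspherical.{v} M → 3 ≤ n → ∀ q, q ≤ 1 ∨ n ≤ q + 1 → h.betti q = 0) := by
  have := ChartedSpace.locallyPathConnectedSpace (EuclideanSpace ℝ (Fin n)) M
  have : PathConnectedSpace M := pathConnectedSpace_iff_connectedSpace.2 inferInstance
  have asp : Aspherical.{v} M ↔ ContractibleSpace X := by
    refine ⟨?_, fun h => ⟨X, inferInstance, p, hp, h⟩⟩
    rintro ⟨Y, _, q, hq, hY⟩
    obtain ⟨y, hy⟩ := surj hq.cov (p x₀)
    obtain ⟨φ, -⟩ := exists_homeo hp hq hy.symm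
    exact φ.contractibleSpace
  obtain ⟨a, ha, h1, h2⟩ := deck_exists hp x₀
  refine ⟨asp, ⟨a, ha, fun b hb => deck_unique hp hb ha⟩, fun b hb => ?_⟩
  obtain rfl := deck_unique hp hb ha
  refine ⟨h2, fun h hn q hq => ?_⟩
  have := asp.1 h
  have := hb.cont
  exact vanish hn h1 hq

end Vale.Agent.P239B
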