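import Vale.Agent.P239B48.Bv
import Vale.Agent.P239B48.Main

/-!
# P239: the L2-Betti numbers of the statement, and the main theorem
-/

set_option linter.all false

namespace Vale.Agent.P239C

open Vale.Agent.P239 (tensorRel bdry)
open Vale.Agent.P239B (io sg pi NG)
open scoped TensorProduct

noncomputable section

section gen

variable {Γ R : Type*} [Group Γ] [Ring R] (v : Γ →* R) (X : Type*) [TopologicalSpace X]
  [MulAction Γ X] [ContinuousConstSMul Γ X]

/-- the presentation of the chains -/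
def pr (n : ℕ) : (Sing X n →₀ R) →ₗ[R] Tens (io v) (Ch Γ X n) := pi v (permRep Γ (Sing X n))

theorem pr_single (n : ℕ) (s : Sing X n) (a : R) (k : ℤ) : pr v X n (.single s (k • a)) =
    (bal (io v) (Ch Γ X n)).mkQ (a ⊗ₜ sg (permRep Γ (Sing X n)) s k) :=
  P239B.pi_single' _ _ s a k

theorem pr_surj (n : ℕ) : Function.Surjective (pr v X n) := P239B.pi_surj _ _

theorem pr_ker (n : ℕ) (z : Sing X n →₀ R) : pr v X n z = 0 ↔ z ∈ tensorRel v (Sing X n) :=
  P239B.pi_ker _ _ (fun _ _ _ => Finsupp.mapDomain_single) z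

theorem pr_bdry (n : ℕ) (z : Sing X (n + 1) →₀ R) :
    pr v X n (bdry R (face (X := X) (n := n)) z) =
      Tens.map (io v) (bd Γ X n) (pr v X (n + 1) z) := by
  induction z using Finsupp.induction_linear with
  | zero => simp only [map_zero]
  | add x y hx hy => simp only [map_add, hx, hy]
  | single s a =>
    have e : bd Γ X n (sg _ s 1) =
        ∑ i, sg (permRep Γ (Sing X n)) (face i s) ((-1) ^ (i : ℕ)) :=
      (Finsupp.linearCombination_single ℤ 1 s).trans (one_smul _ _)
    have e1 := pr_single v X (n + 1) s a 1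
    rw [one_smul] at e1
    rw [bdry, Finsupp.linearCombination_single, Finset.smul_sum, map_sum, e1]
    change _ = (bal (io v) (Ch Γ X n)).mkQ (a ⊗ₜ bd Γ X n (sg _ s 1))
    rw [e, TensorProduct.tmul_sum, map_sum]
    refine Finset.sum_congr rfl fun i _ => ?_
    refine Eq.trans (congrArg _ ?_) (pr_single v X n _ a _)
    rw [Finsupp.smul_single, smul_eq_mul, zsmul_eq_mul, Int.cast_pow, Int.cast_neg, Int.cast_one,
      ((Commute.neg_one_right a).pow_right _).eq]

theorem comap_range (n : ℕ) :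
    LinearMap.range (bdry R (face (X := X) (n := n))) ⊔ tensorRel v (Sing X n) =
      (LinearMap.range (Tens.map (io v) (bd Γ X n))).comap (pr v X n) := by
  ext z
  rw [Submodule.mem_comap, Submodule.mem_sup]
  constructor
  · rintro ⟨_, ⟨w, rfl⟩, y, hy, rfl⟩
    refine ⟨pr v X (n + 1) w, ?_⟩
    rw [← pr_bdry, map_add, (pr_ker v X n y).2 hy, add_zero]
  · rintro ⟨w, hw⟩
    obtain ⟨w, rfl⟩ := pr_surj v X (n + 1) w
    rw [← pr_bdry] at hw
    refine ⟨_, ⟨w, rfl⟩, z - bdry R (face (X := X) (n := n)) w, ?_, by abel⟩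
    rw [← pr_ker, map_sub]
    exact sub_eq_zero.mpr hw.symm

theorem chainDim_eq (t : R → ℂ) (n : ℕ) : chainDim X v t n =
    P239.quoDim t ((cycles (io v) (bd Γ X) n).comap (pr v X n))
      (LinearMap.range (bdry R (face (X := X) (n := n))) ⊔ tensorRel v (Sing X n)) := by
  rw [comap_range]
  exact (P239.quoDim_comap _ _ (pr_surj v X n) _ _).symm

theorem chainDim_zero (t : R → ℂ) : chainDim X v t 0 =
    P239.homDim t v (Fin.elim0 : Fin 0 → Sing X 0 → Sing X 0) face := by
  rw [chainDim_eq]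
  refine congrArg (P239.quoDim _ · _) ?_
  ext z
  have h0 : bdry R (Fin.elim0 : Fin 0 → Sing X 0 → Sing X 0) z = 0 := by
    rw [bdry, Finsupp.linearCombination_apply]
    simp
  rw [Submodule.mem_comap, Submodule.mem_comap, h0]
  exact iff_of_true trivial (Submodule.zero_mem _)

theorem chainDim_succ (t : R → ℂ) (n : ℕ) : chainDim X v t (n + 1) =
    P239.homDim t v (face (X := X) (n := n)) face := by
  rw [chainDim_eq]
  refine congrArg (P239.quoDim _ · _) ?_
  ext z
  rw [Submodule.mem_comap, Submodule.mem_comap, cycles, LinearMap.mem_ker, ← pr_bdry, pr_ker]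

end gen

theorem isComplex (Γ X : Type*) [Group Γ] [TopologicalSpace X] [MulAction Γ X]
    [ContinuousConstSMul Γ X] : IsComplex (bd Γ X) := fun n =>
  LinearMap.ext fun z => P239B.bdry_bdry (R := ℤ) (X := X) (n := n) z

theorem betti_eq {Γ H : Type*} [Group Γ] [NormedAddCommGroup H] [InnerProductSpace ℂ H]
    [CompleteSpace H] (r : Regular Γ H) (X : Type*) [TopologicalSpace X] [MulAction Γ X]
    [ContinuousConstSMul Γ X] (n : ℕ) : r.betti X n = P239B.betti Γ X n := by
  rw [P239B.betti_eq]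
  cases n with
  | zero =>
    exact (chainDim_zero _ X _).trans ((P239.homDim_eq_of_ringEquiv (t := r.tr) (t' := NG.tr)
      (nEquiv r) (tr_nEquiv r) (of_nEquiv r) _ _).trans (P239B.homDim_NG _ _).symm)
  | succ n =>
    exact (chainDim_succ _ X _ n).trans ((P239.homDim_eq_of_ringEquiv (t := r.tr) (t' := NG.tr)
      (nEquiv r) (tr_nEquiv r) (of_nEquiv r) _ _).trans (P239B.homDim_NG _ _).symm)

section cover

variable {M X : Type*} [TopologicalSpace M] [TopologicalSpace X]

theorem uc_iff {p : X → M} : IsUniversalCover p ↔ P239B.IsUniversalCover p :=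
  ⟨fun h => ⟨h.1, h.2⟩, fun h => ⟨h.1, h.2⟩⟩

theorem asph_iff.{w} : Aspherical.{w} M ↔ P239B.Aspherical.{w} M :=
  ⟨fun ⟨Y, t, q, h, k⟩ => ⟨Y, t, q, uc_iff.1 h, k⟩, fun ⟨Y, t, q, h, k⟩ => ⟨Y, t, q, uc_iff.2 h, k⟩⟩

theorem deck_iff {p : X → M} {hp : IsCoveringMap p} {x₀ : X}
    {a : MulAction (FundamentalGroup M (p x₀)) X} :
    IsDeckAction hp x₀ a ↔ P239B.IsDeckAction hp x₀ a :=
  ⟨fun h => ⟨h.1, h.2, h.3⟩, fun h => ⟨h.1, h.2, h.3⟩⟩

end cover

universe u v w

theorem cover_main (n : ℕ) (M : Type u) [TopologicalSpace M] [T2Space M] [CompactSpace M]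
    [ConnectedSpace M] [ChartedSpace (EuclideanSpace ℝ (Fin n)) M] :
    (∃ (X : Type) (_ : TopologicalSpace X) (p : X → M), IsUniversalCover p) ∧
    ∀ (X : Type v) [TopologicalSpace X] (p : X → M) (hp : IsUniversalCover p) (x₀ : X),
      (Aspherical.{v} M ↔ ContractibleSpace X) ∧ (∃! a, IsDeckAction hp.cov x₀ a) ∧
      ∀ (a : MulAction (FundamentalGroup M (p x₀)) X) (h : IsDeckAction hp.cov x₀ a),
        (∀ φ : X ≃ₜ X, (∀ x, p (φ x) = p x) → ∃! γ, ∀ x, a.smul γ x = φ x) ∧
        ∀ (H : Type w) [NormedAddCommGroup H] [InnerProductSpace ℂ H] [CompleteSpace H]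
          (r : Regular (FundamentalGroup M (p x₀)) H), Aspherical.{v} M →
          haveI := h.cont
          (3 ≤ n → ∀ q, q ≤ 1 ∨ n ≤ q + 1 → r.betti X q = 0) := by
  constructor
  · obtain ⟨X, t, p, hp⟩ := P239B.exists_cover (n := n) M
    exact ⟨X, t, p, uc_iff.2 hp⟩
  intro X _ p hp x₀
  obtain ⟨h1, h2, h3⟩ := P239B.cover_main n M X p (uc_iff.1 hp) x₀
  refine ⟨asph_iff.trans h1, by simpa only [deck_iff] using h2, fun a h =>
    ⟨(h3 a (deck_iff.1 h)).1, fun H _ _ _ r hM hn q hq => ?_⟩⟩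
  have := h.cont
  exact (betti_eq r X q).trans ((h3 a (deck_iff.1 h)).2 (asph_iff.1 hM) hn q hq)

end

end Vale.Agent.P239C
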