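import Vale.Agent.P239B48.St
import Vale.Agent.P239B48.Wo

/-!
# P239: the group von Neumann algebra on a Hilbert space with a basis indexed by the group
-/

set_option linter.all false

namespace Vale.Agent.P239C

open Vale.Agent.P239 (dl rTrans)
open Vale.Agent.P239B (L2 lam NG)

noncomputable section

theorem image_centralizer {A B : Type*} [Mul A] [Mul B] (e : A ≃* B) (S : Set A) :
    (e '' S).centralizer = e '' S.centralizer := by
  ext T
  obtain ⟨T, rfl⟩ := e.surjective T
  rw [e.injective.mem_set_image]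
  constructor
  · intro h Z hZ
    exact e.injective (by rw [map_mul, map_mul]; exact h _ ⟨Z, hZ, rfl⟩)
  · rintro h _ ⟨Z, hZ, rfl⟩
    rw [← map_mul, ← map_mul, h Z hZ]

variable {H : Type*} [NormedAddCommGroup H] [InnerProductSpace ℂ H] [CompleteSpace H]
  {Γ : Type*} [Group Γ]

omit [CompleteSpace H] in
theorem repr_b (b : HilbertBasis Γ ℂ H) (x : Γ) : b.repr (b x) = dl x := by
  classical
  exact b.repr_self x

omit [CompleteSpace H] in
theorem symm_dl (b : HilbertBasis Γ ℂ H) (x : Γ) : b.repr.symm (dl x) = b x := by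
  rw [← repr_b b, LinearIsometryEquiv.symm_apply_apply]

/-- conjugation by the basis -/
def cj (b : HilbertBasis Γ ℂ H) : (H →L[ℂ] H) ≃⋆ₐ[ℂ] (L2 Γ →L[ℂ] L2 Γ) := b.repr.conjStarAlgEquiv

theorem cj_dl (b : HilbertBasis Γ ℂ H) (T : H →L[ℂ] H) (x : Γ) :
    cj b T (dl x) = b.repr (T (b x)) := by
  rw [← symm_dl b]; rfl

theorem cj_symm_b (b : HilbertBasis Γ ℂ H) (T : L2 Γ →L[ℂ] L2 Γ) (x : Γ) :
    (cj b).symm T (b x) = b.repr.symm (T (dl x)) := by
  rw [← repr_b b]; rfl

theorem cj_inj (b : HilbertBasis Γ ℂ H) {A B : H →L[ℂ] H} (h : cj b A = cj b B) : A = B :=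
  (cj b).injective h

theorem ext_b (b : HilbertBasis Γ ℂ H) {A B : H →L[ℂ] H} (h : ∀ x, A (b x) = B (b x)) : A = B :=
  cj_inj b (P239B.ext_dl fun x => by rw [cj_dl, cj_dl, h])

theorem lam_dl (g x : Γ) : lam g (dl x) = dl (g * x) := P239.lam_dl g x

/-- the regular representation attached to a basis -/
def regOf (b : HilbertBasis Γ ℂ H) : Regular Γ H where
  b := b
  l :=
    { toFun := fun g => (cj b).symm (lam g)
      map_one' := by
        rw [show lam (1 : Γ) = 1 from congrArg Subtype.val (NG.of Γ).map_one, map_one]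
      map_mul' := fun g h => by
        rw [show lam (g * h) = lam g * lam h from congrArg Subtype.val ((NG.of Γ).map_mul g h),
          map_mul] }
  l_b g x := by
    change (cj b).symm (lam g) (b x) = _
    rw [cj_symm_b, lam_dl, symm_dl]

theorem existsUnique_reg (b : HilbertBasis Γ ℂ H) : ∃! r : Regular Γ H, r.b = b := by
  refine ⟨regOf b, rfl, ?_⟩
  rintro ⟨b, l, h⟩ rfl
  have e : l = (regOf b).l := MonoidHom.ext fun g => ext_b b fun x =>
    (h g x).trans ((regOf b).l_b g x).symm
  subst e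
  rfl

theorem exists_reg.{u} (Γ : Type u) [Group Γ] : ∃ (H : Type u) (_ : NormedAddCommGroup H)
    (_ : InnerProductSpace ℂ H) (_ : CompleteSpace H), Nonempty (Regular Γ H) :=
  ⟨L2 Γ, inferInstance, inferInstance, inferInstance, ⟨regOf default⟩⟩

variable (r : Regular Γ H)

theorem cj_l (g : Γ) : cj r.b (r.l g) = lam g :=
  P239B.ext_dl fun x => by rw [cj_dl, r.l_b, repr_b, lam_dl]

theorem star_l (g : Γ) : star (r.l g) = r.l g⁻¹ :=
  cj_inj r.b (by
    rw [show cj r.b (star (r.l g)) = star (cj r.b (r.l g)) from (cj r.b).map_star' _, cj_l, cj_l,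
      P239B.star_lam])

theorem mem_N {T : H →L[ℂ] H} : T ∈ r.N ↔ T ∈ (Set.range r.l).centralizer.centralizer := by
  have e : Set.range r.l ∪ star (Set.range r.l) = Set.range r.l := by
    refine Set.union_eq_left.2 ?_
    rintro z ⟨g, hg⟩
    exact ⟨g⁻¹, by rw [← star_l, hg, star_star]⟩
  rw [← e, ← StarSubalgebra.coe_centralizer_centralizer ℂ]
  rfl

theorem mem_N_iff {T : H →L[ℂ] H} : T ∈ r.N ↔ cj r.b T ∈ NG Γ := by
  have e : Set.range (lam (Γ := Γ)) = (cj r.b).toRingEquiv.toMulEquiv '' Set.range r.l := by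
    rw [← Set.range_comp]
    exact congrArg Set.range (funext fun g => (cj_l r g).symm)
  rw [mem_N, P239B.mem_NG, e, image_centralizer, image_centralizer]
  exact (cj r.b).toRingEquiv.toMulEquiv.injective.mem_set_image.symm

/-- the isomorphism with the concrete algebra -/
def nEquiv : r.N ≃+* NG Γ where
  toFun a := ⟨cj r.b a.1, (mem_N_iff r).1 a.2⟩
  invFun a := ⟨(cj r.b).symm a.1, (mem_N_iff r).2 (by rw [StarAlgEquiv.apply_symm_apply]; exact a.2)⟩
  left_inv a := Subtype.ext ((cj r.b).symm_apply_apply a.1)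
  right_inv a := Subtype.ext ((cj r.b).apply_symm_apply a.1)
  map_mul' a b := Subtype.ext (map_mul (cj r.b) a.1 b.1)
  map_add' a b := Subtype.ext (map_add (cj r.b) a.1 b.1)

theorem tr_nEquiv (a : r.N) : NG.tr (nEquiv r a) = r.tr a := by
  change inner ℂ (dl 1) (cj r.b a.1 (dl 1)) = _
  rw [cj_dl, ← repr_b r.b, LinearIsometryEquiv.inner_map_map]
  rfl

theorem of_nEquiv (g : Γ) : NG.of Γ g = nEquiv r (r.l.codRestrict r.N r.mem_N g) :=
  Subtype.ext (cj_l r g).symm

theorem N_least : IsLeast {N : VonNeumannAlgebra H | ∀ g, r.l g ∈ N} r.N := by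
  refine ⟨r.mem_N, fun N hN T hT => ?_⟩
  rw [mem_N] at hT
  rw [← SetLike.mem_coe, ← N.centralizer_centralizer]
  refine Set.centralizer_subset (Set.centralizer_subset ?_) hT
  rintro _ ⟨g, rfl⟩
  exact hN g

theorem N_right :
    (r.N : Set (H →L[ℂ] H)) = Set.centralizer {T | ∃ g, ∀ x, T (r.b x) = r.b (x * g)} := by
  ext T
  rw [SetLike.mem_coe, mem_N_iff, P239B.mem_NG_iff]
  constructor
  · rintro h Z ⟨g, hg⟩
    have e : cj r.b Z = rTrans g⁻¹ :=
      P239B.ext_dl fun x => by rw [cj_dl, hg, repr_b, P239.rTrans_dl, inv_inv]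
    refine cj_inj r.b ?_
    rw [map_mul, map_mul, e]
    exact ContinuousLinearMap.ext fun v => (h g⁻¹ v).symm
  · intro h g v
    have k := congrArg (cj r.b) (h ((cj r.b).symm (rTrans g)) ⟨g⁻¹, fun x => by
      rw [cj_symm_b, P239.rTrans_dl, symm_dl]⟩)
    rw [map_mul, map_mul, StarAlgEquiv.apply_symm_apply] at k
    exact (DFunLike.congr_fun k v).symm

/-- the group algebra as an algebra of operators -/
def gAlg : StarSubalgebra ℂ (H →L[ℂ] H) where
  carrier := Submodule.span ℂ (Set.range r.l)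
  add_mem' := add_mem
  algebraMap_mem' c := by
    rw [Algebra.algebraMap_eq_smul_one]
    exact Submodule.smul_mem _ _ (Submodule.subset_span ⟨1, r.l.map_one⟩)
  mul_mem' {a b} ha hb := by
    have := Submodule.mul_mem_mul ha hb
    rw [Submodule.span_mul_span] at this
    refine Submodule.span_mono ?_ this
    rintro _ ⟨_, ⟨g, rfl⟩, _, ⟨h, rfl⟩, rfl⟩
    exact ⟨g * h, r.l.map_mul g h⟩
  star_mem' {a} ha := by
    induction ha using Submodule.span_induction with
    | mem x hx =>
      obtain ⟨g, rfl⟩ := hx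
      exact Submodule.subset_span ⟨g⁻¹, (star_l r g).symm⟩
    | zero => rw [star_zero]; exact zero_mem _
    | add x y _ _ hx hy => rw [star_add]; exact add_mem hx hy
    | smul c x _ hx => rw [star_smul]; exact Submodule.smul_mem _ _ hx

theorem N_weak : {T : H →WOT[ℂ] H | T.toCLM ∈ r.N} =
    closure {T | T.toCLM ∈ Submodule.span ℂ (Set.range r.l)} := by
  refine Set.Subset.antisymm (fun T hT => ?_) (closure_minimal (fun T hT => ?_) ?_)
  · refine P239B.mem_closure_of_bicomm (gAlg r) (y := T.toCLM) fun c hc => ?_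
    exact ((mem_N r).1 hT c fun a ha => hc a (Submodule.subset_span ha)).symm
  · refine (Submodule.span_le (p := r.N.toStarSubalgebra.toSubalgebra.toSubmodule)).2 ?_ hT
    rintro _ ⟨g, rfl⟩
    exact r.mem_N g
  · have e : {T : H →WOT[ℂ] H | T.toCLM ∈ r.N} =
        ⋂ c ∈ (Set.range r.l).centralizer, {T | c * T.toCLM = T.toCLM * c} := by
      ext T
      simp only [Set.mem_iInter, Set.mem_setOf_eq, mem_N]
      rfl
    rw [e]
    exact isClosed_biInter fun c _ => P239B.isClosed_comm c c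

theorem describes : r.Describes r.N := ⟨N_least r, N_weak r, N_right r⟩

end

end Vale.Agent.P239C
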