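import Mathlib

/-!
# P239: the notions of the problem, word for word

The group von Neumann algebra, its trace and dimension function, tensor products over a ring,
singular chains, L2-Betti numbers, universal covers and the action of the fundamental group.
-/

namespace Vale.Agent.P239B

open scoped TensorProduct ENNReal

noncomputable section

section vonNeumann

variable {Γ : Type*} [Group Γ]

/-- The Hilbert space `ℓ²(Γ)`. -/
abbrev L2 (Γ : Type*) : Type _ := lp (fun _ : Γ => ℂ) 2

theorem memLp_left (g : Γ) (ξ : L2 Γ) : Memℓp (fun x => ξ (g⁻¹ * x)) 2 := by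
  have h := lp.memℓp ξ
  rw [memℓp_gen_iff (by norm_num)] at h ⊢
  exact h.comp_injective (mul_right_injective g⁻¹)

/-- The left regular representation, `(lam g ξ) x = ξ (g⁻¹ * x)`. -/
def lam (g : Γ) : L2 Γ →L[ℂ] L2 Γ :=
  LinearMap.mkContinuous
    { toFun := fun ξ => ⟨fun x => ξ (g⁻¹ * x), memLp_left g ξ⟩
      map_add' := fun _ _ => rfl
      map_smul' := fun _ _ => rfl } 1 fun ξ => by
    rw [one_mul, lp.norm_eq_tsum_rpow (by norm_num), lp.norm_eq_tsum_rpow (by norm_num)]
    exact (congrArg (· ^ _) ((Equiv.mulLeft g⁻¹).tsum_eq fun x => ‖ξ x‖ ^ (2 : ℝ≥0∞).toReal)).le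

/-- The group von Neumann algebra: the double commutant of the operators `lam g` on `ℓ²(Γ)`. -/
def NG (Γ : Type*) [Group Γ] : VonNeumannAlgebra (L2 Γ) where
  toStarSubalgebra := .centralizer ℂ (StarSubalgebra.centralizer ℂ (Set.range (lam (Γ := Γ))))
  centralizer_centralizer' := by simp

/-- The homomorphism `g ↦ lam g` from `Γ` to its von Neumann algebra. -/
def NG.of (Γ : Type*) [Group Γ] : Γ →* NG Γ where
  toFun g := ⟨lam g, StarAlgebra.adjoin_le_centralizer_centralizer ℂ _
    (StarAlgebra.subset_adjoin ℂ _ ⟨g, rfl⟩)⟩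
  map_one' := Subtype.ext (ContinuousLinearMap.ext fun ξ => lp.ext (funext fun x =>
    congrArg ξ (by rw [inv_one, one_mul])))
  map_mul' g h := Subtype.ext (ContinuousLinearMap.ext fun ξ => lp.ext (funext fun x =>
    congrArg ξ (by rw [mul_inv_rev, mul_assoc])))

/-- The ring homomorphism from the integral group ring `ℤΓ` to the group von Neumann algebra. -/
def NG.incl (Γ : Type*) [Group Γ] : MonoidAlgebra ℤ Γ →+* NG Γ :=
  (MonoidAlgebra.lift ℤ (NG Γ) Γ (NG.of Γ)).toRingHom

open Classical in
/-- The von Neumann trace `⟨δ₁, a δ₁⟩`. -/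
def NG.tr (a : NG Γ) : ℂ := inner ℂ (lp.single 2 1 1 : L2 Γ) (a.1 (lp.single 2 1 1))

/-- The extended Murray-von Neumann dimension of a module `M` over `N = NG Γ`: the supremum of the
dimensions of its finitely generated projective submodules `P`; here `P ≅ Nⁿ A` for an idempotent
`n × n` matrix `A` over `N`, and the dimension of `P` is the trace `∑ i, tr (A i i)`. -/
def dimN (Γ : Type*) [Group Γ] (M : Type*) [AddCommGroup M] [Module (NG Γ) M] : ℝ≥0∞ :=
  sSup {d | ∃ (P : Submodule (NG Γ) M) (n : ℕ) (A : Matrix (Fin n) (Fin n) (NG Γ)), A * A = A ∧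
    Nonempty (P ≃ₗ[NG Γ] LinearMap.range A.vecMulLinear) ∧
      d = ENNReal.ofReal (∑ i, NG.tr (A i i)).re}

end vonNeumann

section tensor

variable {A R : Type*} [Ring A] [Ring R] (ι : A →+* R)

/-- The relations `a r ⊗ c = a ⊗ r c` for `r` in `A`; `R` is a right `A`-module through `ι`. -/
def bal (C : Type*) [AddCommGroup C] [Module A C] : Submodule R (R ⊗[ℤ] C) :=
  .span R {z | ∃ (a : R) (r : A) (c : C), z = (a * ι r) ⊗ₜ c - a ⊗ₜ (r • c)}

/-- The tensor product `R ⊗_A C` of `R` with a left `A`-module `C`, a left `R`-module. -/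
abbrev Tens (C : Type*) [AddCommGroup C] [Module A C] := (R ⊗[ℤ] C) ⧸ bal ι C

/-- The map `id ⊗ f : R ⊗_A C → R ⊗_A C'`. -/
def Tens.map {C C' : Type*} [AddCommGroup C] [Module A C] [AddCommGroup C'] [Module A C']
    (f : C →ₗ[A] C') : Tens ι C →ₗ[R] Tens ι C' :=
  Submodule.mapQ _ _ (f.toAddMonoidHom.toIntLinearMap.baseChange R) (Submodule.span_le.2 <| by
    rintro _ ⟨a, r, c, rfl⟩
    exact Submodule.subset_span ⟨a, r, f c, by simp⟩)

end tensor

section chains

variable {X : Type*} [TopologicalSpace X]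

/-- Singular `n`-simplices in `X`. -/
abbrev Sing (X : Type*) [TopologicalSpace X] (n : ℕ) := C(stdSimplex ℝ (Fin (n + 1)), X)

/-- The `i`-th face of a singular simplex. -/
def face {n : ℕ} (i : Fin (n + 2)) (s : Sing X (n + 1)) : Sing X n :=
  s.comp ⟨stdSimplex.map i.succAbove, stdSimplex.continuous_map _⟩

variable (Γ X : Type*) [Group Γ] [TopologicalSpace X] [MulAction Γ X] [ContinuousConstSMul Γ X]

/-- The action of `Γ` on the singular `n`-chains, the free abelian group on the `n`-simplices. -/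
def chainRep (n : ℕ) : Representation ℤ Γ (Sing X n →₀ ℤ) where
  toFun g := Finsupp.lmapDomain ℤ ℤ (g • ·)
  map_one' := by ext; simp
  map_mul' g h := by ext; simp [mul_smul]

/-- The singular `n`-chains `C_n(X)` as a module over `ℤΓ`. -/
abbrev Ch (n : ℕ) := (chainRep Γ X n).asModule

/-- The boundary `s ↦ ∑ i, (-1)^i (face i s)`, a map of `ℤΓ`-modules. -/
def bd (n : ℕ) : Ch Γ X (n + 1) →ₗ[MonoidAlgebra ℤ Γ] Ch Γ X n :=
  Representation.IntertwiningMap.equivLinearMapAsModule _ _
    ⟨Finsupp.linearCombination ℤ fun s => ∑ i, .single (face i s) ((-1) ^ (i : ℕ)), fun g => by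
      ext s : 2
      simp only [chainRep, MonoidHom.coe_mk, OneHom.coe_mk, LinearMap.comp_apply,
        Finsupp.lsingle_apply, Finsupp.lmapDomain_apply, Finsupp.mapDomain_single,
        Finsupp.linearCombination_single, one_smul, map_sum]
      rfl⟩

/-- The cycles of the complex `NΓ ⊗_{ℤΓ} C_*(X)`. -/
def cycles : (n : ℕ) → Submodule (NG Γ) (Tens (NG.incl Γ) (Ch Γ X n))
  | 0 => ⊤
  | n + 1 => LinearMap.ker (Tens.map (NG.incl Γ) (bd Γ X n))

/-- The homology `H_n(NΓ ⊗_{ℤΓ} C_*(X))`, cycles modulo boundaries. -/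
abbrev Homol (n : ℕ) := cycles Γ X n ⧸
  (LinearMap.range (Tens.map (NG.incl Γ) (bd Γ X n))).submoduleOf (cycles Γ X n)

/-- The L2-Betti number `dim_{NΓ} H_n(NΓ ⊗_{ℤΓ} C_*(X))`. -/
def betti (n : ℕ) : ℝ≥0∞ := dimN Γ (Homol Γ X n)

end chains

section cover

variable {M X : Type*} [TopologicalSpace M] [TopologicalSpace X]

/-- `p : X → M` is a universal cover: a covering map with simply connected total space. -/
structure IsUniversalCover (p : X → M) : Prop where
  cov : IsCoveringMap p
  sc : SimplyConnectedSpace X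

/-- `M` is aspherical: it has a contractible universal cover. -/
def Aspherical.{w} (M : Type*) [TopologicalSpace M] : Prop :=
  ∃ (Y : Type w) (_ : TopologicalSpace Y) (q : Y → M), IsUniversalCover q ∧ ContractibleSpace Y

/-- `a` is the action of `π₁(M, p x₀)` on `X` by deck transformations: `γ` acts by a continuous map
over `M`, which takes the end point of the lift of `γ` at `x₀` to `x₀`. -/
structure IsDeckAction {p : X → M} (hp : IsCoveringMap p) (x₀ : X)
    (a : MulAction (FundamentalGroup M (p x₀)) X) : Prop where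
  cont : ContinuousConstSMul (FundamentalGroup M (p x₀)) X
  proj : ∀ (γ : FundamentalGroup M (p x₀)) (x : X), p (γ • x) = p x
  lift : ∀ γ : FundamentalGroup M (p x₀), γ • (hp.monodromy γ ⟨x₀, rfl⟩ : X) = x₀

/-- The L2-Betti numbers of `X` with the action of `Γ = π₁(M, p x₀)` by deck transformations. -/
def IsDeckAction.betti {p : X → M} {hp : IsCoveringMap p} {x₀ : X}
    {a : MulAction (FundamentalGroup M (p x₀)) X} (h : IsDeckAction hp x₀ a) (n : ℕ) : ℝ≥0∞ :=
  haveI := h.cont
  P239B.betti (FundamentalGroup M (p x₀)) X n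

end cover

end

end Vale.Agent.P239B
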