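import Mathlib

/-!
# P239: the notions of the problem, word for word

The group von Neumann algebra, its trace and dimension function, tensor products over a ring,
singular chains, L2-Betti numbers, universal covers and the action of the fundamental group.
-/

namespace Vale.Agent.P239C

open scoped TensorProduct ENNReal

noncomputable section

section modules

variable {A R : Type*} [Ring A] [Ring R]

/-- The extended dimension of a module `M` over a ring `R` with trace `t`: the supremum of the
dimensions of its finitely generated projective submodules `P`; here `P ≅ Rⁿ B` for an idempotent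
`n × n` matrix `B` over `R`, and the dimension of `P` is the trace `∑ i, t (B i i)`. -/
def dimOf (t : R → ℂ) (M : Type*) [AddCommGroup M] [Module R M] : ℝ≥0∞ :=
  sSup {d | ∃ (P : Submodule R M) (n : ℕ) (B : Matrix (Fin n) (Fin n) R), B * B = B ∧
    Nonempty (P ≃ₗ[R] LinearMap.range B.vecMulLinear) ∧ d = ENNReal.ofReal (∑ i, t (B i i)).re}

/-- The dimension of the quotient module `Z / B`. -/
def quoDim (t : R → ℂ) {M : Type*} [AddCommGroup M] [Module R M] (Z B : Submodule R M) : ℝ≥0∞ :=
  dimOf t (Z ⧸ B.submoduleOf Z)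

variable (ι : A →+* R)

/-- The relations `a r ⊗ c = a ⊗ r c` for `r` in `A`; `R` is a right `A`-module through `ι`. -/
def bal (C : Type*) [AddCommGroup C] [Module A C] : Submodule R (R ⊗[ℤ] C) :=
  .span R {z | ∃ (a : R) (r : A) (c : C), z = (a * ι r) ⊗ₜ c - a ⊗ₜ (r • c)}

/-- The tensor product `R ⊗_A C` of `R` with a left `A`-module `C`, a left `R`-module. -/
abbrev Tens (C : Type*) [AddCommGroup C] [Module A C] := (R ⊗[ℤ] C) ⧸ bal ι C

section

variable {C C' : Type*} [AddCommGroup C] [Module A C] [AddCommGroup C'] [Module A C']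

theorem bal_le (f : C →ₗ[A] C') :
    bal ι C ≤ (bal ι C').comap (f.toAddMonoidHom.toIntLinearMap.baseChange R) :=
  Submodule.span_le.2 <| by
    rintro _ ⟨a, r, c, rfl⟩
    exact Submodule.subset_span ⟨a, r, f c, by simp⟩

/-- The map `id ⊗ f : R ⊗_A C → R ⊗_A C'`. -/
def Tens.map (f : C →ₗ[A] C') : Tens ι C →ₗ[R] Tens ι C' := Submodule.mapQ _ _ _ (bal_le ι f)

end

variable {C : ℕ → Type*} [∀ n, AddCommGroup (C n)] [∀ n, Module A (C n)]
  (d : ∀ n, C (n + 1) →ₗ[A] C n)

/-- The maps `d n` form a chain complex. -/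
def IsComplex : Prop := ∀ n, d n ∘ₗ d (n + 1) = 0

/-- The cycles of the complex `R ⊗_A C_*`, for a complex `C_*` of `A`-modules with boundary `d`. -/
def cycles : ∀ n, Submodule R (Tens ι (C n))
  | 0 => ⊤
  | n + 1 => LinearMap.ker (Tens.map ι (d n))

/-- The dimension of the homology `H_n(R ⊗_A C_*)`, cycles modulo boundaries. -/
def homDim (t : R → ℂ) (n : ℕ) : ℝ≥0∞ :=
  quoDim t (cycles ι d n) (LinearMap.range (Tens.map ι (d n)))

end modules

section chains

variable (Γ : Type*) [Group Γ]

/-- The action of `Γ` on the free abelian group on a `Γ`-set `S`. -/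
def permRep (S : Type*) [MulAction Γ S] : Representation ℤ Γ (S →₀ ℤ) where
  toFun g := Finsupp.lmapDomain ℤ ℤ (g • ·)
  map_one' := by ext; simp
  map_mul' g h := by ext; simp [mul_smul]

/-- The map of `ℤΓ`-modules `s ↦ ∑ i, (-1)^i (d i s)` given by equivariant maps `d i`. -/
def altSum {S T : Type*} [MulAction Γ S] [MulAction Γ T] {m : ℕ} (d : Fin m → T → S)
    (hd : ∀ i (g : Γ) s, d i (g • s) = g • d i s) :
    (permRep Γ T).asModule →ₗ[MonoidAlgebra ℤ Γ] (permRep Γ S).asModule :=
  Representation.IntertwiningMap.equivLinearMapAsModule _ _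
    ⟨Finsupp.linearCombination ℤ fun s => ∑ i, .single (d i s) ((-1) ^ (i : ℕ)), fun g => by
      ext s : 2
      simp [permRep, hd]⟩

/-- Singular `n`-simplices in `X`. -/
abbrev Sing (X : Type*) [TopologicalSpace X] (n : ℕ) := C(stdSimplex ℝ (Fin (n + 1)), X)

/-- The `i`-th face of a singular simplex. -/
def face {X : Type*} [TopologicalSpace X] {n : ℕ} (i : Fin (n + 2)) (s : Sing X (n + 1)) :
    Sing X n :=
  s.comp ⟨stdSimplex.map i.succAbove, stdSimplex.continuous_map _⟩

variable (X : Type*) [TopologicalSpace X] [MulAction Γ X] [ContinuousConstSMul Γ X]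

/-- The singular `n`-chains `C_n(X)` as a module over `ℤΓ`. -/
abbrev Ch (n : ℕ) := (permRep Γ (Sing X n)).asModule

/-- The boundary `C_{n+1}(X) → C_n(X)`, `s ↦ ∑ i, (-1)^i (face i s)`. -/
def bd (n : ℕ) : Ch Γ X (n + 1) →ₗ[MonoidAlgebra ℤ Γ] Ch Γ X n := altSum Γ face fun _ _ _ => rfl

variable {Γ} in
/-- The dimension of `H_n(R ⊗_{ℤΓ} C_*(X))` for a ring `R` with trace `t`; the homomorphism
`v : Γ → R` extends to the ring homomorphism `ℤΓ → R`. -/
def chainDim {R : Type*} [Ring R] (v : Γ →* R) (t : R → ℂ) (n : ℕ) : ℝ≥0∞ :=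
  homDim (MonoidAlgebra.lift ℤ R Γ v).toRingHom (bd Γ X) t n

end chains

section vonNeumann

variable {H : Type*} [NormedAddCommGroup H] [InnerProductSpace ℂ H] [CompleteSpace H]

/-- The von Neumann algebra generated by a set `S` of operators: its double commutant. -/
def vN (S : Set (H →L[ℂ] H)) : VonNeumannAlgebra H where
  toStarSubalgebra := .centralizer ℂ (StarSubalgebra.centralizer ℂ S)
  centralizer_centralizer' := by simp

theorem subset_vN {S : Set (H →L[ℂ] H)} {T : H →L[ℂ] H} (h : T ∈ S) : T ∈ vN S :=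
  StarAlgebra.adjoin_le_centralizer_centralizer ℂ _ (StarAlgebra.subset_adjoin ℂ _ h)

/-- The Hilbert space `H = ℓ²(Γ)` with its orthonormal basis `b` indexed by `Γ`, and the left
regular representation `l`. -/
structure Regular (Γ H : Type*) [Group Γ] [NormedAddCommGroup H] [InnerProductSpace ℂ H] where
  b : HilbertBasis Γ ℂ H
  l : Γ →* (H →L[ℂ] H)
  l_b : ∀ g x, l g (b x) = b (g * x)

variable {Γ : Type*} [Group Γ] (r : Regular Γ H)

/-- The group von Neumann algebra `NΓ`, generated by the left regular representation. -/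
def Regular.N : VonNeumannAlgebra H := vN (Set.range r.l)

theorem Regular.mem_N (g : Γ) : r.l g ∈ r.N := subset_vN ⟨g, rfl⟩

/-- The von Neumann trace `⟨δ₁, a δ₁⟩`. -/
def Regular.tr (a : r.N) : ℂ := inner ℂ (r.b 1) (a.1 (r.b 1))

/-- The L2-Betti number `dim_{NΓ} H_n(NΓ ⊗_{ℤΓ} C_*(X))`. -/
def Regular.betti (X : Type*) [TopologicalSpace X] [MulAction Γ X] [ContinuousConstSMul Γ X]
    (n : ℕ) : ℝ≥0∞ :=
  chainDim X (r.l.codRestrict r.N r.mem_N) r.tr n

/-- The other usual descriptions of the group von Neumann algebra: the least von Neumann algebra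
containing all `l g`, the weak operator closure of their span, and the commutant of the right
translations. -/
structure Regular.Describes (N : VonNeumannAlgebra H) : Prop where
  least : IsLeast {N' : VonNeumannAlgebra H | ∀ g, r.l g ∈ N'} N
  weak : {T : H →WOT[ℂ] H | T.toCLM ∈ N} =
    closure {T | T.toCLM ∈ Submodule.span ℂ (Set.range r.l)}
  right : (N : Set (H →L[ℂ] H)) = Set.centralizer {T | ∃ g, ∀ x, T (r.b x) = r.b (x * g)}

end vonNeumann

section cover

variable {M X : Type*} [TopologicalSpace M] [TopologicalSpace X]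

/-- `p : X → M` is a universal cover: a covering map with simply connected total space. -/
structure IsUniversalCover (p : X → M) : Prop where
  cov : IsCoveringMap p
  sc : SimplyConnectedSpace X

/-- `M` is aspherical: it has a contractible universal cover. -/
def Aspherical.{w} (M : Type*) [TopologicalSpace M] : Prop :=
  ∃ (Y : Type w) (_ : TopologicalSpace Y) (q : Y → M), IsUniversalCover q ∧ ContractibleSpace Y

/-- `a` is the action of `π₁(M, p x₀)` on `X` by deck transformations: `γ` acts by a continuous map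
over `M`, which takes the end point of the lift of `γ` at `x₀` to `x₀`. -/
structure IsDeckAction {p : X → M} (hp : IsCoveringMap p) (x₀ : X)
    (a : MulAction (FundamentalGroup M (p x₀)) X) : Prop where
  cont : ContinuousConstSMul (FundamentalGroup M (p x₀)) X
  proj : ∀ (γ : FundamentalGroup M (p x₀)) (x : X), p (γ • x) = p x
  lift : ∀ γ : FundamentalGroup M (p x₀), γ • (hp.monodromy γ ⟨x₀, rfl⟩ : X) = x₀

end cover

end

end Vale.Agent.P239C
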