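import Vale.Agent.P239B48.Vn
import Vale.Agent.P239.H269.BZero

/-!
# P239: the tensor product over the group ring, and the L2-Betti numbers
-/

set_option linter.all false

namespace Vale.Agent.P239B

open Vale.Agent.P239 (tensorRel bdry homDim quoDim)
open scoped TensorProduct

noncomputable section

section gen

variable {Γ R S : Type*} [Group Γ] [Ring R] [MulAction Γ S] (u : Γ →* R)
  (ρ : Representation ℤ Γ (S →₀ ℤ))

/-- the ring homomorphism on the group ring -/
abbrev io : MonoidAlgebra ℤ Γ →+* R := (MonoidAlgebra.lift ℤ R Γ u).toRingHom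

/-- the basis vectors -/
def sg (s : S) (k : ℤ) : ρ.asModule := Finsupp.single s k

theorem sg_eq (s : S) (k : ℤ) : sg ρ s k = k • sg ρ s 1 := by
  change Finsupp.single s k = k • Finsupp.single s (1 : ℤ)
  rw [Finsupp.smul_single, smul_eq_mul, mul_one]

theorem sg_ind {P : ρ.asModule → Prop} (h0 : P 0) (ha : ∀ x y, P x → P y → P (x + y))
    (hs : ∀ s k, P (sg ρ s k)) (c : ρ.asModule) : P c :=
  Finsupp.induction_linear (motive := P) c h0 ha hs

/-- the free module maps onto the tensor product -/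
def pi : (S →₀ R) →ₗ[R] Tens (io u) ρ.asModule :=
  Finsupp.linearCombination R fun s => (bal (io u) ρ.asModule).mkQ (1 ⊗ₜ sg ρ s 1)

theorem pi_single (s : S) (a : R) :
    pi u ρ (.single s a) = (bal (io u) ρ.asModule).mkQ (a ⊗ₜ sg ρ s 1) := by
  rw [pi, Finsupp.linearCombination_single, ← map_smul, TensorProduct.smul_tmul', smul_eq_mul,
    mul_one]

theorem pi_single' (s : S) (a : R) (k : ℤ) :
    pi u ρ (.single s (k • a)) = (bal (io u) ρ.asModule).mkQ (a ⊗ₜ sg ρ s k) := by
  rw [pi_single, sg_eq ρ s k, TensorProduct.smul_tmul]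

theorem pi_surj : Function.Surjective (pi u ρ) := by
  intro z
  obtain ⟨z, rfl⟩ := (bal (io u) ρ.asModule).mkQ_surjective z
  change _ ∈ LinearMap.range (pi u ρ)
  induction z using TensorProduct.induction_on with
  | zero => rw [map_zero]; exact zero_mem _
  | add x y hx hy => rw [map_add]; exact add_mem hx hy
  | tmul a c =>
    induction c using sg_ind ρ with
    | h0 => rw [TensorProduct.tmul_zero, map_zero]; exact zero_mem _
    | ha x y hx hy => rw [TensorProduct.tmul_add, map_add]; exact add_mem hx hy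
    | hs s k => exact ⟨_, pi_single' u ρ s a k⟩

/-- the inverse on the chains -/
def ph : ρ.asModule →+ (S →₀ R) ⧸ tensorRel u S :=
  (Finsupp.linearCombination ℤ fun s => (tensorRel u S).mkQ (.single s 1)).toAddMonoidHom

theorem ph_sg (s : S) (k : ℤ) : ph u ρ (sg ρ s k) = k • (tensorRel u S).mkQ (.single s 1) :=
  Finsupp.linearCombination_single ℤ k s

/-- the inverse on the tensor product over the integers -/
def ps : R ⊗[ℤ] ρ.asModule →ₗ[R] (S →₀ R) ⧸ tensorRel u S :=
  TensorProduct.AlgebraTensorModule.lift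
    (LinearMap.toSpanSingleton R _ (ph u ρ).toIntLinearMap)

theorem ps_tmul (a : R) (c : ρ.asModule) : ps u ρ (a ⊗ₜ c) = a • ph u ρ c := rfl

variable (hρ : ∀ g s k, ρ g (.single s k) = .single (g • s) k)
include hρ

theorem smul_sg (g : Γ) (m : ℤ) (s : S) (k : ℤ) :
    MonoidAlgebra.single g m • sg ρ s k = sg ρ (g • s) (m * k) := by
  rw [Representation.single_smul]
  change m • ρ g (.single s k) = Finsupp.single _ _
  rw [hρ, Finsupp.smul_single, smul_eq_mul]

theorem ph_smul (r : MonoidAlgebra ℤ Γ) (c : ρ.asModule) : ph u ρ (r • c) = io u r • ph u ρ c := by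
  induction r using MonoidAlgebra.induction_linear with
  | zero => simp
  | add x y hx hy => rw [add_smul, map_add, hx, hy, map_add, add_smul]
  | single g m =>
    induction c using sg_ind ρ with
    | h0 => simp
    | ha x y hx hy => rw [smul_add, map_add, hx, hy, map_add, smul_add]
    | hs s k =>
      have e : (tensorRel u S).mkQ (.single (g • s) 1) =
          u g • (tensorRel u S).mkQ (.single s 1) := by
        rw [← map_smul, Finsupp.smul_single, smul_eq_mul, mul_one, Submodule.mkQ_apply,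
          Submodule.mkQ_apply, Submodule.Quotient.eq]
        exact Submodule.subset_span ⟨g, s, 1, by rw [one_mul]⟩
      have e2 : io u (.single g m) = m • u g := MonoidAlgebra.lift_single u g m
      rw [smul_sg ρ hρ, ph_sg, ph_sg, e, e2, smul_assoc, mul_smul, smul_comm (u g) k]

theorem pi_ker (z : S →₀ R) : pi u ρ z = 0 ↔ z ∈ tensorRel u S := by
  constructor
  · intro h
    have k : bal (io u) ρ.asModule ≤ LinearMap.ker (ps u ρ) := Submodule.span_le.2 <| by
      rintro _ ⟨a, r, c, rfl⟩
      rw [SetLike.mem_coe, LinearMap.mem_ker, map_sub, ps_tmul, ps_tmul, ph_smul u ρ hρ, mul_smul,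
        sub_self]
    have e : (bal (io u) ρ.asModule).liftQ (ps u ρ) k ∘ₗ pi u ρ = (tensorRel u S).mkQ := by
      refine Finsupp.lhom_ext fun s a => ?_
      rw [LinearMap.comp_apply, pi_single, Submodule.mkQ_apply, Submodule.liftQ_apply, ps_tmul,
        ph_sg, one_smul, ← map_smul, Finsupp.smul_single, smul_eq_mul, mul_one]
    rw [← Submodule.Quotient.mk_eq_zero, ← Submodule.mkQ_apply, ← e, LinearMap.comp_apply, h,
      map_zero]
  · refine fun h => (Submodule.span_le (p := LinearMap.ker (pi u ρ))).2 ?_ h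
    rintro _ ⟨g, s, a, rfl⟩
    rw [SetLike.mem_coe, LinearMap.mem_ker, map_sub, pi_single, pi_single, sub_eq_zero, eq_comm,
      Submodule.mkQ_apply, Submodule.mkQ_apply, Submodule.Quotient.eq]
    refine Submodule.subset_span ⟨a, .single g 1, sg ρ s 1, ?_⟩
    have e2 : io u (.single g 1) = (1 : ℤ) • u g := MonoidAlgebra.lift_single u g 1
    rw [smul_sg ρ hρ, e2, one_smul, mul_one]

end gen

variable (Γ X : Type*) [Group Γ] [TopologicalSpace X] [MulAction Γ X] [ContinuousConstSMul Γ X]

theorem chainRep_single (n : ℕ) (g : Γ) (s : Sing X n) (k : ℤ) :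
    chainRep Γ X n g (.single s k) = .single (g • s) k := Finsupp.mapDomain_single

/-- the presentation of the chains -/
def pr (n : ℕ) : (Sing X n →₀ NG Γ) →ₗ[NG Γ] Tens (NG.incl Γ) (Ch Γ X n) :=
  pi (NG.of Γ) (chainRep Γ X n)

theorem pr_single (n : ℕ) (s : Sing X n) (a : NG Γ) (k : ℤ) : pr Γ X n (.single s (k • a)) =
    (bal (NG.incl Γ) (Ch Γ X n)).mkQ (a ⊗ₜ sg (chainRep Γ X n) s k) :=
  pi_single' _ _ s a k

theorem pr_surj (n : ℕ) : Function.Surjective (pr Γ X n) := pi_surj _ _

theorem pr_ker (n : ℕ) (z : Sing X n →₀ NG Γ) :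
    pr Γ X n z = 0 ↔ z ∈ tensorRel (NG.of Γ) (Sing X n) :=
  pi_ker _ _ (chainRep_single Γ X n) z

theorem pr_bdry (n : ℕ) (z : Sing X (n + 1) →₀ NG Γ) :
    pr Γ X n (bdry (NG Γ) (face (X := X) (n := n)) z) =
      Tens.map (NG.incl Γ) (bd Γ X n) (pr Γ X (n + 1) z) := by
  induction z using Finsupp.induction_linear with
  | zero => simp only [map_zero]
  | add x y hx hy => simp only [map_add, hx, hy]
  | single s a =>
    have e : bd Γ X n (sg _ s 1) = ∑ i, sg (chainRep Γ X n) (face i s) ((-1) ^ (i : ℕ)) :=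
      (Finsupp.linearCombination_single ℤ 1 s).trans (one_smul _ _)
    have e1 := pr_single Γ X (n + 1) s a 1
    rw [one_smul] at e1
    rw [bdry, Finsupp.linearCombination_single, Finset.smul_sum, map_sum, e1]
    change _ = (bal (NG.incl Γ) (Ch Γ X n)).mkQ (a ⊗ₜ bd Γ X n (sg _ s 1))
    rw [e, TensorProduct.tmul_sum, map_sum]
    refine Finset.sum_congr rfl fun i _ => ?_
    refine Eq.trans (congrArg _ ?_) (pr_single Γ X n _ a _)
    rw [Finsupp.smul_single, smul_eq_mul, zsmul_eq_mul, Int.cast_pow, Int.cast_neg, Int.cast_one,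
      ((Commute.neg_one_right a).pow_right _).eq]

theorem comap_range (n : ℕ) :
    LinearMap.range (bdry (NG Γ) (face (X := X) (n := n))) ⊔ tensorRel (NG.of Γ) (Sing X n) =
      (LinearMap.range (Tens.map (NG.incl Γ) (bd Γ X n))).comap (pr Γ X n) := by
  ext z
  rw [Submodule.mem_comap, Submodule.mem_sup]
  constructor
  · rintro ⟨_, ⟨w, rfl⟩, y, hy, rfl⟩
    refine ⟨pr Γ X (n + 1) w, ?_⟩
    rw [← pr_bdry, map_add, (pr_ker Γ X n y).2 hy, add_zero]
  · rintro ⟨w, hw⟩
    obtain ⟨w, rfl⟩ := pr_surj Γ X (n + 1) w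
    rw [← pr_bdry] at hw
    refine ⟨_, ⟨w, rfl⟩, z - bdry (NG Γ) (face (X := X) (n := n)) w, ?_, by abel⟩
    rw [← pr_ker, map_sub]
    exact sub_eq_zero.mpr hw.symm

theorem betti_eq (n : ℕ) : betti Γ X n = P239.bettiTwo Γ X n := by
  have e : betti Γ X n = quoDim (NG.tr (Γ := Γ)) ((cycles Γ X n).comap (pr Γ X n))
      ((LinearMap.range (Tens.map (NG.incl Γ) (bd Γ X n))).comap (pr Γ X n)) :=
    (P239.quoDim_comap _ _ (pr_surj Γ X n) _ _).symm
  rw [e, ← comap_range]
  cases n with
  | zero =>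
    refine Eq.trans ?_ (homDim_NG (Fin.elim0 : Fin 0 → Sing X 0 → Sing X 0) face).symm
    refine congrArg (quoDim _ · _) ?_
    ext z
    have h0 : bdry (NG Γ) (Fin.elim0 : Fin 0 → Sing X 0 → Sing X 0) z = 0 := by
      rw [bdry, Finsupp.linearCombination_apply]
      simp
    rw [Submodule.mem_comap, Submodule.mem_comap, h0]
    exact iff_of_true trivial (Submodule.zero_mem _)
  | succ n =>
    refine Eq.trans ?_ (homDim_NG (face (X := X) (n := n)) face).symm
    refine congrArg (quoDim _ · _) ?_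
    ext z
    rw [Submodule.mem_comap, Submodule.mem_comap, cycles, LinearMap.mem_ker, ← pr_bdry, pr_ker]
    exact Iff.rfl

end

end Vale.Agent.P239B
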