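import Vale.Agent.P239B48.Defs
import Vale.Agent.P239.Bdl.B10

/-!
# P239: the commutation theorem for the group von Neumann algebra
-/

set_option linter.all false

namespace Vale.Agent.P239B

open Vale.Agent.P239 (dl rTrans VN)

noncomputable section

variable {Γ : Type*} [Group Γ]

theorem hasSum_dl (v : L2 Γ) : HasSum (fun x => v x • (dl x : L2 Γ)) v := by
  classical
  have hv := lp.hasSum_single (p := 2) (by norm_num) v
  have e : ∀ x, lp.single 2 x (v x) = v x • (dl x : L2 Γ) := fun x => by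
    rw [dl, ← lp.single_smul]; simp
  simpa only [e] using hv

theorem ext_dl {A B : L2 Γ →L[ℂ] L2 Γ} (h : ∀ x, A (dl x) = B (dl x)) : A = B := by
  refine ContinuousLinearMap.ext fun v => ?_
  have h3 := (hasSum_dl v).mapL A
  have h4 := (hasSum_dl v).mapL B
  simp only [map_smul, h] at h3 h4
  exact h3.unique h4

theorem hasSum_app (A : L2 Γ →L[ℂ] L2 Γ) (v : L2 Γ) (y : Γ) :
    HasSum (fun w => v w * A (dl w) y) (A v y) := by
  have h2 := ((hasSum_dl v).mapL A).mapL (innerSL ℂ (dl y))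
  simpa only [map_smul, innerSL_apply_apply, P239.inner_dl, smul_eq_mul] using h2

theorem lam_eq (g : Γ) : lam g = (P239.lam g).op := rfl

theorem star_lam (g : Γ) : star (lam g) = lam g⁻¹ := by
  refine ((ContinuousLinearMap.eq_adjoint_iff _ _).2 fun u v => ?_).symm
  have h := (P239.shift (Equiv.mulLeft g⁻¹)).inner_map_map (lam g⁻¹ u) v
  rw [← h]
  congr 1
  exact lp.ext (funext fun x => congrArg u (show g⁻¹⁻¹ * (g⁻¹ * x) = x by simp))

theorem mem_NG {T : L2 Γ →L[ℂ] L2 Γ} :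
    T ∈ NG Γ ↔ T ∈ (Set.range (lam (Γ := Γ))).centralizer.centralizer := by
  have e : Set.range (lam (Γ := Γ)) ∪ star (Set.range lam) = Set.range lam := by
    refine Set.union_eq_left.2 ?_
    rintro z ⟨g, hg⟩
    exact ⟨g⁻¹, by rw [← star_lam, hg, star_star]⟩
  rw [← e, ← StarSubalgebra.coe_centralizer_centralizer ℂ]
  rfl

/-- The commutation theorem. -/
theorem mem_NG_iff {T : L2 Γ →L[ℂ] L2 Γ} :
    T ∈ NG Γ ↔ ∀ g v, T (rTrans g v) = rTrans g (T v) := by
  rw [mem_NG]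
  refine ⟨fun h g v => ?_, fun h Z hZ => ext_dl fun x => lp.ext (funext fun y => ?_)⟩
  · refine (DFunLike.congr_fun (h (rTrans g) ?_) v).symm
    rintro _ ⟨k, rfl⟩
    exact ContinuousLinearMap.ext fun ξ => lp.ext (funext fun x =>
      congrArg ξ (mul_assoc k⁻¹ x g))
  · have z : ∀ w u, Z (dl w) u = Z (dl 1) (w⁻¹ * u) := fun w u => by
      have := DFunLike.congr_fun (hZ (lam w) ⟨w, rfl⟩) (dl 1)
      rw [mul_apply_eq_comp, mul_apply_eq_comp, lam_eq, P239.lam_dl,
        mul_one] at this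
      rw [← this]
      rfl
    have t : ∀ w u, T (dl w) u = T (dl 1) (u * w⁻¹) := VN.op_dl (VN.mk T h)
    have h1 := hasSum_app Z (T (dl x)) y
    have h2 := hasSum_app T (Z (dl x)) y
    rw [← ((Equiv.inv Γ).trans ((Equiv.mulLeft y).trans (Equiv.mulRight x))).hasSum_iff] at h1
    refine h1.unique (h2.congr_fun fun u => ?_)
    simp only [Function.comp_apply, Equiv.trans_apply, Equiv.inv_apply, Equiv.coe_mulLeft,
      Equiv.coe_mulRight]
    rw [z x, t u, t x, z (y * u⁻¹ * x), mul_comm]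
    congr 2 <;> group

theorem NG_least : IsLeast {N : VonNeumannAlgebra (L2 Γ) | ∀ g, lam g ∈ N} (NG Γ) := by
  refine ⟨fun g => (NG.of Γ g).2, fun N hN T hT => ?_⟩
  rw [mem_NG] at hT
  rw [← SetLike.mem_coe, ← N.centralizer_centralizer]
  refine Set.centralizer_subset (Set.centralizer_subset ?_) hT
  rintro _ ⟨g, rfl⟩
  exact hN g

theorem mem_NG_right (T : L2 Γ →L[ℂ] L2 Γ) : T ∈ NG Γ ↔
    ∀ (g : Γ) (ξ η : L2 Γ), (∀ x, η x = ξ (x * g)) → ∀ x, T η x = T ξ (x * g) := by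
  rw [mem_NG_iff]
  refine ⟨fun h g ξ η e x => ?_, fun h g v => lp.ext (funext (h g v _ fun _ => rfl))⟩
  rw [show η = rTrans g ξ from lp.ext (funext e), h]
  rfl

/-- The two descriptions of the group von Neumann algebra. -/
def vnEquiv (Γ : Type*) [Group Γ] : VN Γ ≃+* NG Γ where
  toFun a := ⟨a.op, mem_NG_iff.2 a.op_comm⟩
  invFun a := VN.mk a.1 (mem_NG_iff.1 a.2)
  left_inv _ := rfl
  right_inv _ := rfl
  map_mul' _ _ := rfl
  map_add' _ _ := rfl

theorem tr_vnEquiv (a : VN Γ) : NG.tr (vnEquiv Γ a) = P239.tr a := rfl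

theorem of_eq (g : Γ) : NG.of Γ g = vnEquiv Γ (P239.lam g) := Subtype.ext (lam_eq g)

theorem homDim_NG {S T U : Type*} [MulAction Γ S] [MulAction Γ T] {m n : ℕ}
    (d : Fin m → T → S) (d' : Fin n → U → T) :
    P239.homDim (fun a : P239.NG Γ => a.fn 1) P239.NG.of d d' =
      P239.homDim (NG.tr (Γ := Γ)) (NG.of Γ) d d' :=
  (P239.homDim_NG d d').trans
    (P239.homDim_eq_of_ringEquiv (t := P239.tr) (t' := NG.tr) (u := P239.lam) (u' := NG.of Γ)
      (vnEquiv Γ) tr_vnEquiv of_eq d d')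

end

end Vale.Agent.P239B
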